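import Vale.Agent.P095G.DefsSI2

/-! Equivariant property (SI) for algebras without unit. -/

namespace Vale.Agent.P095S

open Filter Topology Vale.Agent.P095H Vale.Agent.P095G

variable {G B : Type} [Group G] [CStarAlgebra B]

/-- Linear functionals that are positive traces on the ideal generated by `c`, normalized at `c`. -/
structure ITr (c : B) (τ : B →ₗ[ℂ] ℂ) : Prop where
  pos : ∀ x ∈ TwoSidedIdeal.span {c}, 0 ≤ (τ (star x * x)).re ∧ (τ (star x * x)).im = 0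
  comm : ∀ x ∈ TwoSidedIdeal.span {c}, ∀ y, τ (x * y) = τ (y * x)
  le : (τ (c * c)).re ≤ 1

/-- Equivariant property (SI) modulo the annihilator of `J`, tested at `b`. -/
def PropSIN (ω : Ultrafilter ℕ) (J : Set B) (γ : G →* Aut B) (b c : B) : Prop :=
  ∀ e f : ℕ → B, CenInv ω γ e → CenInv ω γ f → (∀ n, PosCtr (e n)) → (∀ n, PosCtr (f n)) →
    (∀ ε : ℝ, 0 < ε → ∀ᶠ n in (ω : Filter ℕ), ∀ τ : B →ₗ[ℂ] ℂ, ITr c τ →
      (τ (b * e n * b)).re ≤ ε) →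
    (∃ κ : ℝ, 0 < κ ∧ ∀ (m : ℕ) (δ : ℝ), 0 < δ → ∀ᶠ n in (ω : Filter ℕ), ∀ τ : B →ₗ[ℂ] ℂ, ITr c τ →
      κ * (τ (b * b)).re - δ ≤ (τ (b * f n ^ m * b)).re) →
    ∃ s : ℕ → B, CenInv ω γ s ∧ ∀ a ∈ J,
      Tendsto (fun n => ‖(star (s n) * s n - e n) * a‖) ω (𝓝 0) ∧
      Tendsto (fun n => ‖(f n * s n - s n) * a‖) ω (𝓝 0)

end Vale.Agent.P095S
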