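import Vale.Agent.P095S.Defs
import Vale.Agent.P095S.Defs2
import Vale.Agent.P101.PartU1

/-! From plain sequences to bounded sequences. -/

namespace Vale.Agent.P095S

open Filter Topology Vale.Agent.P101 Vale.Agent.P095H Vale.Agent.P095G

variable {G B : Type} [Group G] [CStarAlgebra B]

theorem eqSIN_of {ω : Ultrafilter ℕ} {J : Set B} {γ : G →* Aut B} {b c : B}
    (h : PropSIN ω J γ b c) : EqSIN ω J γ b c := by
  intro e f he hf c1 c2 c3 c4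
  have p : ∀ τ, ITr c τ → PTr c τ := fun τ t => ⟨t.pos, t.comm, t.le⟩
  obtain ⟨κ, k0, k1⟩ := c4
  obtain ⟨s, ⟨⟨C, s0⟩, s1, s2⟩, s3⟩ := h e f
    ⟨⟨‖e‖, lp.norm_apply_le_norm ENNReal.top_ne_zero e⟩, he.1, he.2⟩
    ⟨⟨‖f‖, lp.norm_apply_le_norm ENNReal.top_ne_zero f⟩, hf.1, hf.2⟩ c1 c2
    (fun ε hε => (c3 ε hε).mono fun n hn τ t => hn τ (p τ t))
    ⟨κ, k0, fun m δ hδ => (k1 m δ hδ).mono fun n hn τ t => hn τ (p τ t)⟩
  exact ⟨U1.bd s C s0, ⟨s1, s2⟩, s3⟩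

end Vale.Agent.P095S
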