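import Vale.Agent.P095S.Defs

/-! Equivariant property (SI) for algebras without unit, with plain sequences. -/

namespace Vale.Agent.P095S

open Filter Topology

variable {G B : Type} [Group G] [CStarAlgebra B]

/-- Sequences that are central and invariant along `ω`. -/
def CInvS (ω : Ultrafilter ℕ) (γ : G →* (B ≃⋆ₐ[ℂ] B)) (x : ℕ → B) : Prop :=
  (∀ a, Tendsto (fun n => ‖x n * a - a * x n‖) ω (𝓝 0)) ∧
    ∀ g, Tendsto (fun n => ‖γ g (x n) - x n‖) ω (𝓝 0)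

/-- Sequences of positive contractions. -/
def PosS (x : ℕ → B) : Prop := ∀ n, IsSelfAdjoint (x n) ∧ spectrum ℝ (x n) ⊆ Set.Icc 0 1

/-- Tracially null sequences, tested at `b`. -/
def NullS (ω : Ultrafilter ℕ) (b c : B) (e : ℕ → B) : Prop :=
  ∀ ε : ℝ, 0 < ε → ∀ᶠ n in (ω : Filter ℕ), ∀ τ : B →ₗ[ℂ] ℂ, PTr c τ → (τ (b * e n * b)).re ≤ ε

/-- Sequences that are tracially supported at one, tested at `b`. -/
def LargeS (ω : Ultrafilter ℕ) (b c : B) (f : ℕ → B) : Prop :=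
  ∃ κ : ℝ, 0 < κ ∧ ∀ (m : ℕ) (δ : ℝ), 0 < δ → ∀ᶠ n in (ω : Filter ℕ), ∀ τ : B →ₗ[ℂ] ℂ, PTr c τ →
    κ * (τ (b * b)).re - δ ≤ (τ (b * f n ^ m * b)).re

/-- Equivariant property (SI) modulo the annihilator of `J`, tested at `b`. -/
def EqSIS (ω : Ultrafilter ℕ) (J : Set B) (γ : G →* (B ≃⋆ₐ[ℂ] B)) (b c : B) : Prop :=
  ∀ e f : ℕ → B, CInvS ω γ e → CInvS ω γ f → PosS e → PosS f → NullS ω b c e → LargeS ω b c f →
    ∃ s : ℕ → B, (∀ n, ‖s n‖ ≤ 1) ∧ CInvS ω γ s ∧ ∀ a ∈ J,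
      Tendsto (fun n => ‖(star (s n) * s n - e n) * a‖) ω (𝓝 0) ∧
      Tendsto (fun n => ‖(f n * s n - s n) * a‖) ω (𝓝 0)

end Vale.Agent.P095S
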