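import Vale.Agent.P095S.Work
import Vale.Agent.P095G.PartSI2
import Vale.Agent.P095G.PartAVG

/-! Property (SI) excludes characters, no unit. -/

namespace Vale.Agent.P095S

open Filter Topology Finset Vale.Agent.P101 Vale.Agent.P095 Vale.Agent.P095G Vale.Agent.P095H
  TopologicalSpace

variable {B E Q : Type} [CStarAlgebra B] [CStarAlgebra E] [CStarAlgebra Q]
  {G : Type} [Group G] {ω : Ultrafilter ℕ}

namespace NOC

lemma ctr_w {v : B} (hv : ‖v‖ ≤ 1) :
    Ctr (star (1 - star v * v - v * star v) * (1 - star v * v - v * star v)) := by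
  let _ := CStarAlgebra.spectralOrder B
  have _ := CStarAlgebra.spectralOrderedRing B
  obtain ⟨a0, a1⟩ := AVG.ctr_iff.1 (SI.ctr_of hv)
  obtain ⟨b0, b1⟩ := AVG.ctr_iff.1 (SI.ctr_of (x := star v) (by rwa [norm_star]))
  rw [star_star] at b0 b1
  generalize star v * v = x at a0 a1 ⊢
  generalize v * star v = y at b0 b1 ⊢
  have s : IsSelfAdjoint (1 - x - y) :=
    ((IsSelfAdjoint.one B).sub a0.isSelfAdjoint).sub b0.isSelfAdjoint
  have c1 : 0 ≤ 1 - (1 - x - y) := (add_nonneg a0 b0).trans_eq (by abel)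
  have c2 : 0 ≤ 1 + (1 - x - y) :=
    (add_nonneg (sub_nonneg.2 a1) (sub_nonneg.2 b1)).trans_eq (by abel)
  generalize 1 - x - y = w at s c1 c2 ⊢
  have c3 := Commute.mul_nonneg c1 c2
    ((Commute.one_right _).add_right ((Commute.one_left w).sub_left (Commute.refl w)))
  rw [s.star_eq]
  exact AVG.ctr_iff.2 ⟨s.mul_self_nonneg, sub_nonneg.1 (c3.trans_eq (by noncomm_ring))⟩

lemma mem [Nontrivial B] {q : Linf B →⋆ₐ[ℂ] E} (hq : IsUlt ω q) (γ : G →* Aut B) {K : Type}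
    (k : K → G) {σ : K → E →⋆ₐ[ℂ] E} (hσ : Ind q (fun i => (γ (k i) : B →⋆ₐ[ℂ] B)) σ)
    {x : Linf B} (h : CInv ω γ x) : q x ∈ P095.Fix q (id : B → B) σ := by
  have key : ∀ a : B, q (cst B a) * q x = q x * q (cst B a) := fun a => by
    rw [← map_mul, ← map_mul]
    exact ((U1.eq_iff hq (x * cst B a) (cst B a * x)).2 (h.1 a)).symm
  refine mem_fix.2 ⟨(StarSubalgebra.mem_centralizer_iff ℂ).2 ?_, fun i => ?_⟩
  · rintro _ ⟨a, rfl⟩
    refine ⟨key a, ?_⟩
    rw [← map_star]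
    exact key (star a)
  · rw [hσ]
    exact (U1.eq_iff hq _ _).2 (h.2 (k i))

end NOC

theorem nocharN (hω : (ω : Filter ℕ) ≤ cofinite) [Nontrivial B] [SeparableSpace B] [Countable G]
    {q : Linf B →⋆ₐ[ℂ] E} (hq : IsUlt ω q) (γ : G →* Aut B) {I K : Type} (a : I → B) (k : K → G)
    {σ : K → E →⋆ₐ[ℂ] E} (hσ : Ind q (fun i => (γ (k i) : B →⋆ₐ[ℂ] B)) σ)
    {π : P095.Fix q (id : B → B) σ →⋆ₐ[ℂ] Q} (hπ : Pres _ (fun i => q (cst B (a i))) π) {b c : B}
    (hS : EqSIN ω (Set.range a) γ b c) (h : McB γ b c) : IsEmpty (Q →⋆ₐ[ℂ] ℂ) := by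
  classical
  obtain ⟨l, hl⟩ := exists_surjective_nat G
  choose v v1 v2 v3 v4 using fun n : ℕ => h ((range (n + 1)).image (denseSeq B))
    ((range (n + 1)).image l) n (1 / ((n : ℝ) + 1)) Nat.one_div_pos_of_nat
  have hω' : (ω : Filter ℕ) ≤ atTop := Nat.cofinite_eq_atTop ▸ hω
  have t0 : Tendsto (fun n : ℕ => 1 / ((n : ℝ) + 1)) ω (𝓝 0) :=
    (tendsto_one_div_add_atTop_nhds_zero_nat (𝕜 := ℝ)).mono_left hω'
  have ev : ∀ ε : ℝ, 0 < ε → ∀ᶠ n : ℕ in (ω : Filter ℕ), 1 / ((n : ℝ) + 1) < ε := fun ε hε =>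
    t0.eventually (gt_mem_nhds hε)
  let y : Linf B := U1.bd v 1 v1
  have hy : CInv ω γ y := by
    refine ⟨fun a => Metric.tendsto_nhds.2 fun ε hε => ?_, fun g => ?_⟩
    · obtain ⟨i, hi⟩ := (denseRange_denseSeq B).exists_dist_lt a (show 0 < ε / 3 by positivity)
      rw [dist_eq_norm] at hi
      filter_upwards [ev (ε / 3) (by positivity), hω' (eventually_ge_atTop i)] with n h1 h2
      have h3 := v2 n _ (mem_image_of_mem _ (mem_range.2 (Nat.lt_succ_of_le h2)))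
      rw [dist_zero_right, norm_norm]
      show ‖v n * a - a * v n‖ < ε
      have e : v n * a - a * v n = (v n * denseSeq B i - denseSeq B i * v n) +
          (v n * (a - denseSeq B i) - (a - denseSeq B i) * v n) := by noncomm_ring
      have h4 := norm_mul_le (v n) (a - denseSeq B i)
      have h5 := norm_mul_le (a - denseSeq B i) (v n)
      have h6 := norm_sub_le (v n * (a - denseSeq B i)) ((a - denseSeq B i) * v n)
      have h7 := mul_le_mul_of_nonneg_right (v1 n) (norm_nonneg (a - denseSeq B i))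
      rw [e]
      refine (norm_add_le _ _).trans_lt ?_
      linarith
    · obtain ⟨i, rfl⟩ := hl g
      refine squeeze_zero' (Eventually.of_forall fun _ => norm_nonneg _) ?_ t0
      filter_upwards [hω' (eventually_ge_atTop i)] with n h2
      exact (v3 n _ (mem_image_of_mem _ (mem_range.2 (Nat.lt_succ_of_le h2)))).le
  have cm : ∀ {x z : Linf B}, CInv ω γ x → CInv ω γ z → CInv ω γ (x * z) := fun hx hz =>
    (SI.mem_iff γ _).1 (mul_mem ((SI.mem_iff γ _).2 hx) ((SI.mem_iff γ _).2 hz))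
  have cs : ∀ {x z : Linf B}, CInv ω γ x → CInv ω γ z → CInv ω γ (x - z) := fun hx hz =>
    (SI.mem_iff γ _).1 (sub_mem ((SI.mem_iff γ _).2 hx) ((SI.mem_iff γ _).2 hz))
  have ct : ∀ {x : Linf B}, CInv ω γ x → CInv ω γ (star x) := fun hx =>
    (SI.mem_iff γ _).1 (star_mem ((SI.mem_iff γ _).2 hx))
  have c1 : CInv ω γ 1 := (SI.mem_iff γ _).1 (one_mem _)
  refine ⟨fun χ0 => ?_⟩
  let χ := χ0.comp π
  have mm := fun x (hx : CInv ω γ x) => NOC.mem hq γ k hσ hx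
  have lg : ∀ (m : ℕ) (δ : ℝ), 0 < δ → ∀ᶠ n in (ω : Filter ℕ), ∀ τ : B →ₗ[ℂ] ℂ, PTr c τ →
      1 / 4 * (τ (b * b)).re - δ ≤ (τ (b * (star (v n) * v n) ^ m * b)).re ∧
        1 / 4 * (τ (b * b)).re - δ ≤ (τ (b * (1 - star (v n) * v n) ^ m * b)).re := by
    intro m δ hδ
    filter_upwards [ev _ hδ, hω' (eventually_ge_atTop m)] with n hn hm τ hτ
    obtain ⟨p1, p2⟩ := (v4 n τ hτ).2.2 m hm
    exact ⟨by linarith, by linarith⟩
  have use : ∀ (e f : Linf B) (he : CInv ω γ e) (hf : CInv ω γ f),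
      (∀ n, Ctr (e n)) → (∀ n, Ctr (f n)) →
      (∀ ε : ℝ, 0 < ε → ∀ᶠ n in (ω : Filter ℕ), ∀ τ : B →ₗ[ℂ] ℂ, PTr c τ →
        (τ (b * e n * b)).re ≤ ε) →
      (∀ (m : ℕ) (δ : ℝ), 0 < δ → ∀ᶠ n in (ω : Filter ℕ), ∀ τ : B →ₗ[ℂ] ℂ, PTr c τ →
        1 / 4 * (τ (b * b)).re - δ ≤ (τ (b * f n ^ m * b)).re) →
      χ ⟨q e, mm e he⟩ ≠ 0 → χ ⟨q f, mm f hf⟩ = 1 := by
    intro e f he hf c1 c2 c3 c4 h0
    obtain ⟨s, s1, s2⟩ := hS e f he hf c1 c2 c3 ⟨1 / 4, by norm_num, c4⟩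
    let S : P095.Fix q (id : B → B) σ := ⟨q s, mm s s1⟩
    have d1 : π (star S * S - ⟨q e, mm e he⟩) = 0 := (hπ.ker _).2 fun i => by
      show (star (q s) * q s - q e) * q (cst B (a i)) = 0
      rw [← map_star, ← map_mul, ← map_sub, ← map_mul]
      exact (U1.zero_iff hq _).2 (s2 _ ⟨i, rfl⟩).1
    have d2 : π (⟨q f, mm f hf⟩ * S - S) = 0 := (hπ.ker _).2 fun i => by
      show (q f * q s - q s) * q (cst B (a i)) = 0
      rw [← map_mul, ← map_sub, ← map_mul]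
      exact (U1.zero_iff hq _).2 (s2 _ ⟨i, rfl⟩).2
    have d1' : χ (star S * S - ⟨q e, mm e he⟩) = 0 := (congrArg χ0 d1).trans (map_zero χ0)
    have d2' : χ (⟨q f, mm f hf⟩ * S - S) = 0 := (congrArg χ0 d2).trans (map_zero χ0)
    rw [map_sub, map_mul, sub_eq_zero] at d1' d2'
    have d3 : χ S ≠ 0 := fun d => h0 (by rw [← d1', d, mul_zero])
    exact mul_right_cancel₀ d3 (by rw [d2', one_mul])
  let V : P095.Fix q (id : B → B) σ := ⟨q y, mm y hy⟩
  have kill : ∀ (z : Linf B) (hz : CInv ω γ z), (∀ n, Ctr (star (z n) * z n)) →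
      (∀ n, ∀ τ : B →ₗ[ℂ] ℂ, PTr c τ →
        (τ (b * (star (z n) * z n) * b)).re ≤ 1 / ((n : ℝ) + 1)) → χ ⟨q z, mm z hz⟩ = 0 := by
    intro z hz z1 z2
    by_contra h0
    have he : (⟨q (star z * z), mm _ (cm (ct hz) hz)⟩ : P095.Fix q (id : B → B) σ) =
        star ⟨q z, mm z hz⟩ * ⟨q z, mm z hz⟩ := Subtype.ext (by
      show q (star z * z) = star (q z) * q z
      rw [map_mul, map_star])
    have h1 : χ ⟨q (star z * z), mm _ (cm (ct hz) hz)⟩ ≠ 0 := by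
      rw [he, map_mul, map_star]
      exact mul_ne_zero (star_ne_zero.2 h0) h0
    have nu : ∀ ε : ℝ, 0 < ε → ∀ᶠ n in (ω : Filter ℕ), ∀ τ : B →ₗ[ℂ] ℂ, PTr c τ →
        (τ (b * (star z * z) n * b)).re ≤ ε := fun ε hε =>
      (ev ε hε).mono fun n hn τ hτ => (z2 n τ hτ).trans hn.le
    have a1 := use (star z * z) (star y * y) (cm (ct hz) hz) (cm (ct hy) hy) z1
      (fun n => SI.ctr_of (v1 n)) nu (fun m δ hδ => (lg m δ hδ).mono fun n hn τ hτ => (hn τ hτ).1) h1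
    have a2 := use (star z * z) (1 - star y * y) (cm (ct hz) hz) (cs c1 (cm (ct hy) hy)) z1
      (fun n => SI.ctr_sub (SI.ctr_of (v1 n))) nu
      (fun m δ hδ => (lg m δ hδ).mono fun n hn τ hτ => (hn τ hτ).2) h1
    have e2 : (⟨q (1 - star y * y), mm _ (cs c1 (cm (ct hy) hy))⟩ : P095.Fix q (id : B → B) σ) =
        1 - ⟨q (star y * y), mm _ (cm (ct hy) hy)⟩ := Subtype.ext (by
      show q (1 - star y * y) = 1 - q (star y * y)
      rw [map_sub, map_one])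
    rw [e2, map_sub, map_one, a1, sub_self] at a2
    exact zero_ne_one a2
  have k1 := kill (y * y) (cm hy hy) (fun n => SI.ctr_of ((norm_mul_le (v n) (v n)).trans
    (mul_le_one₀ (v1 n) (norm_nonneg _) (v1 n)))) fun n τ hτ => (v4 n τ hτ).1
  have k2 := kill (1 - star y * y - y * star y) (cs (cs c1 (cm (ct hy) hy)) (cm hy (ct hy)))
    (fun n => NOC.ctr_w (v1 n)) fun n τ hτ => (v4 n τ hτ).2.1
  have e1 : (⟨q (y * y), mm _ (cm hy hy)⟩ : P095.Fix q (id : B → B) σ) = V * V :=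
    Subtype.ext (map_mul q y y)
  have e2 : (⟨q (1 - star y * y - y * star y), mm _ (cs (cs c1 (cm (ct hy) hy))
      (cm hy (ct hy)))⟩ : P095.Fix q (id : B → B) σ) = 1 - star V * V - V * star V :=
    Subtype.ext (by
      show q (1 - star y * y - y * star y) = 1 - star (q y) * q y - q y * star (q y)
      rw [map_sub, map_sub, map_one, map_mul, map_mul, map_star])
  rw [e1, map_mul, mul_self_eq_zero] at k1
  rw [e2, map_sub, map_sub, map_mul, map_mul, k1, map_one] at k2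
  simp at k2

end Vale.Agent.P095S
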