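import Vale.Agent.P095S.PartMCB
import Vale.Agent.P095S.PartNOC
import Vale.Agent.P095S.DefsS
import Vale.Agent.P095.NMain
import Vale.Agent.P095H.PartN3
import Vale.Agent.P095A.Main
import Vale.Agent.P095G.PartBOOST
import Vale.Agent.P095M.PartMAIN0

/-! Assembly for algebras without unit. -/

namespace Vale.Agent.P095S

open Filter Topology Finset Vale.Agent.P101 Vale.Agent.P095 Vale.Agent.P095G Vale.Agent.P095H
  TopologicalSpace

variable {W Z : Type} [CStarAlgebra W] [CStarAlgebra Z]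
  {A T : Type} [NonUnitalCStarAlgebra A] [NonUnitalCStarAlgebra T] {ω : Ultrafilter ℕ}

theorem EqSIS.toN {B G : Type} [CStarAlgebra B] [Group G] {J : Set B} {γ : G →* Aut B} {b c : B}
    (h : EqSIS ω J γ b c) : EqSIN ω J γ b c := fun e f h1 h2 h3 h4 h5 h6 => by
  obtain ⟨s, s1, s2, s3⟩ := h e f h1 h2 h3 h4 h5 h6
  exact ⟨U1.bd s 1 s1, s2, s3⟩

open U2 in
theorem mainS (hω : (ω : Filter ℕ) ≤ cofinite) [Nontrivial A] [SeparableSpace A] [SeparableSpace Z]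
    (hZ : DropLimit Z) (hf : HalfFlipZero Z) (hs : SelfCen Z) (hn : IsEmpty (Z →⋆ₐ[ℂ] ℂ))
    (ι : A →⋆ₙₐ[ℂ] W) (j : Z →⋆ₐ[ℂ] W) (κ : T →⋆ₙₐ[ℂ] W) (hι : Function.Injective ι)
    (hκ : Function.Injective κ) (hc : ∀ a d, Commute (ι a) (j d))
    (hT : Set.range κ = closure (Submodule.span ℂ {w | ∃ a d, w = ι a * j d} : Set W))
    (hid : ∀ w t, ∃ t', κ t * w = κ t')
    (hst : Nonempty (A ≃⋆ₐ[ℂ] T)) {G : Type} [Group G] [Countable G] (hG : P184.IsAmenable G)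
    (α : G →* (A ≃⋆ₐ[ℂ] A)) (β : G →* (W ≃⋆ₐ[ℂ] W)) (h1 : ∀ g a, β g (ι a) = ι (α g a))
    (h2 : ∀ g d, β g (j d) = j d) (γ : G →* Aut (Unitization ℂ A))
    (hγ : ∀ g (a : A), γ g a = (α g a : A)) {b c : A} (hb : IsSelfAdjoint b) (hc' : IsSelfAdjoint c)
    (hbc : b * c = b)
    (hS : EqSIN ω (Set.range (Unitization.inr : A → Unitization ℂ A)) γ (b : Unitization ℂ A) c) :
    ∃ (Φ : A ≃⋆ₐ[ℂ] T) (u : G → W), (∀ g, u g ∈ unitary W) ∧ (∀ g h, u (g * h) = u g * β g (u h)) ∧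
      ∀ g a, κ (Φ (α g a)) = u g * β g (κ (Φ a)) * star (u g) := by
  obtain ⟨φ⟩ := hst
  have : SeparableSpace (Unitization ℂ A) :=
    (Unitization.uniformEquivProd (𝕜 := ℂ) (A := A)).symm.surjective.denseRange.separableSpace
      (Unitization.uniformEquivProd (𝕜 := ℂ) (A := A)).symm.continuous
  obtain ⟨E, _, _, q, hq⟩ := exists_ult (A := Unitization ℂ A) ω
  obtain ⟨Q0, _, π0, hπ0⟩ := exists_pres (Cen q (id : Unitization ℂ A → Unitization ℂ A))
    (fun a : A => q (cst _ (a : Unitization ℂ A))) fun x hx a => mem_cen.1 hx _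
  have hπ' : Pres _ (fun a : Set.range (Unitization.inr : A → Unitization ℂ A) => q (cst _ a)) π0 :=
    ⟨hπ0.surj, fun x => (hπ0.ker x).trans ⟨fun h => by rintro ⟨_, a, rfl⟩; exact h a,
      fun h a => h ⟨_, a, rfl⟩⟩, hπ0.nrm⟩
  obtain ⟨σ0, hσ0⟩ := actQ hq γ (by rintro g _ ⟨a, rfl⟩; exact ⟨_, (hγ g a).symm⟩) hπ'
  obtain ⟨c1, c2⟩ := cpg_of_one (σ := σ0) fun D _ _ β i hi S hS => oneQ hω hq γ hπ0 hσ0 hi S hS
  have le : Fix q (id : Unitization ℂ A → Unitization ℂ A) (fun k : Empty => k.elim) ≤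
      Cen q (id : Unitization ℂ A → Unitization ℂ A) := fun x hx => (mem_fix.1 hx).1
  have c3 : IsEmpty (Q0 →⋆ₐ[ℂ] ℂ) := cen_nocharN hω hq hs hn ι j κ hκ hc hT hid φ
    (π0 := π0.comp (StarSubalgebra.inclusion le)) ⟨fun z => by
      obtain ⟨x, rfl⟩ := hπ0.surj z
      exact ⟨⟨x.1, mem_fix.2 ⟨x.2, fun k => k.elim⟩⟩, rfl⟩, fun x => hπ0.ker _, fun x δ hδ => by
      obtain ⟨m, m1, m2⟩ := hπ0.nrm (StarSubalgebra.inclusion le x) δ hδ
      exact ⟨⟨m.1, mem_fix.2 ⟨m.2, fun k => k.elim⟩⟩, m1, m2⟩⟩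
  have hM := mcB hω hG α γ hγ hq hπ0 hσ0
    (boost c1 (P095M.relM c1 (P095A.gam_all hG c1 c2 c3) c2 c3 hG)) hb hc' hbc
  have cm : ∀ {K : Type} (σ : K → E →⋆ₐ[ℂ] E), ∀ x ∈ Fix q id σ, ∀ a : A,
      Commute x (q (cst _ (a : Unitization ℂ A))) := fun σ x hx a =>
    U2.mem_cen.1 (mem_fix.1 hx).1 _
  refine intertwineN ι j κ hι hκ hc hT hid α β h1 fun V X Y ε hε => ?_
  obtain ⟨ι', el⟩ : ∃ ι' : Unitization ℂ A →⋆ₐ[ℂ] W, ∀ a : A, ι' a = ι a :=
    ⟨Unitization.starLift ι, fun a => DFunLike.congr_fun (Unitization.starLift.symm_apply_apply ι) a⟩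
  have er : ∀ r : ℂ, ι' (Unitization.inl r) = algebraMap ℂ W r := fun r => AlgHomClass.commutes ι' r
  have eg : ∀ g (r : ℂ), γ g (Unitization.inl r) = Unitization.inl r := fun g r =>
    AlgHomClass.commutes (γ g) r
  obtain ⟨σ, hσ⟩ := exists_ind hq fun g : V => (γ g : Unitization ℂ A →⋆ₐ[ℂ] Unitization ℂ A)
  obtain ⟨Q, _, π, hπ⟩ := exists_pres _ _ (cm σ)
  obtain ⟨a0, ha0⟩ := exists_ne (0 : A)
  obtain ⟨z, hz, a1, a2, a3⟩ := approxN hω hq hZ hf hσ hπ (drop (cpone_quot hω hq hσ hπ).cp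
    (nocharN hω hq γ _ (fun g : V => (g : G)) hσ hπ hS hM)) ι' j
    ⟨a0, by rw [el]; exact fun h => ha0 (hι (h.trans (map_zero ι).symm))⟩
    (fun b d => by
      induction b using Unitization.ind with
      | inl_add_inr r a =>
        rw [map_add, el, er]
        exact Commute.add_left (Algebra.commutes r _) (hc a d))
    (fun g : V => (β g : W →⋆ₐ[ℂ] W))
    (fun g b => by
      induction b using Unitization.ind with
      | inl_add_inr r a =>
        change β g (ι' _) = ι' (γ g _)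
        rw [map_add, map_add, map_add, map_add, hγ, eg, el, el, er, AlgHomClass.commutes]
        exact congrArg _ (h1 g a))
    (fun g d => h2 g d) X Y ε hε
  refine ⟨z, hz, fun g hg => a1 ⟨g, hg⟩, fun a ha => ?_, fun d hd a ha => ?_⟩
  · simpa only [el] using a2 a ha
  · obtain ⟨b, hb⟩ := a3 d hd
    refine ⟨b.fst • a + b.snd * a, ?_⟩
    have e : ι' b * ι a = ι (b.fst • a + b.snd * a) := by
      induction b using Unitization.ind with
      | inl_add_inr r b => simp [add_mul, Algebra.smul_def, el, er]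
    have := hb a ha
    rwa [el, sub_mul, e] at this

end Vale.Agent.P095S
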