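import Vale.Agent.P095S.PartMCB
import Vale.Agent.P095S.PartNOC
import Vale.Agent.P095S.Bridge
import Vale.Agent.P095H.PartN5
import Vale.Agent.P095H.PartN3
import Vale.Agent.P095G.PartBOOST
import Vale.Agent.P095A.Main
import Vale.Agent.P095M.PartMAIN0

/-! Equivariant stability from property (SI), without unit. -/

namespace Vale.Agent.P095S

open Filter Topology Finset Vale.Agent.P101 Vale.Agent.P095 Vale.Agent.P095G Vale.Agent.P095H
  TopologicalSpace U2

variable {W Z E Q : Type} [CStarAlgebra W] [CStarAlgebra Z] [CStarAlgebra E] [CStarAlgebra Q]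
  {A T : Type} [NonUnitalCStarAlgebra A] [NonUnitalCStarAlgebra T] {ω : Ultrafilter ℕ}

lemma lift4 {D : Type} [CStarAlgebra D] (π : D →⋆ₐ[ℂ] Q) (h : Function.Surjective π)
    (χ : D →⋆ₐ[ℂ] ℂ) (hχ : ∀ x, π x = 0 → χ x = 0) : Nonempty (Q →⋆ₐ[ℂ] ℂ) := by
  have key : ∀ x, χ (Function.surjInv h (π x)) = χ x := fun x => by
    rw [← sub_eq_zero, ← map_sub]
    exact hχ _ (by rw [map_sub, Function.surjInv_eq h, sub_self])
  refine ⟨{ toFun := fun z => χ (Function.surjInv h z)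
            map_one' := by rw [← map_one π, key, map_one]
            map_mul' := fun a b => ?_
            map_zero' := by rw [← map_zero π, key, map_zero]
            map_add' := fun a b => ?_
            commutes' := fun c => by
              rw [← AlgHomClass.commutes π c, key, AlgHomClass.commutes]
            map_star' := fun a => ?_ }⟩
  · obtain ⟨a, rfl⟩ := h a
    obtain ⟨b, rfl⟩ := h b
    rw [← map_mul, key, key, key, map_mul]
  · obtain ⟨a, rfl⟩ := h a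
    obtain ⟨b, rfl⟩ := h b
    rw [← map_add, key, key, key, map_add]
  · obtain ⟨a, rfl⟩ := h a
    show χ (Function.surjInv h (star (π a))) = star (χ (Function.surjInv h (π a)))
    rw [← map_star, key, key, map_star]

theorem mainS4 (hω : (ω : Filter ℕ) ≤ cofinite) [Nontrivial A] [SeparableSpace A]
    [SeparableSpace Z] (hZ : DropLimit Z) (hf : HalfFlipZero Z) (hs : SelfCen Z)
    (hn : IsEmpty (Z →⋆ₐ[ℂ] ℂ))
    (ι : A →⋆ₙₐ[ℂ] W) (j : Z →⋆ₐ[ℂ] W) (κ : T →⋆ₙₐ[ℂ] W) (hι : Function.Injective ι)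
    (hκ : Function.Injective κ) (hc : ∀ a d, Commute (ι a) (j d))
    (hT : Set.range κ = closure (Submodule.span ℂ {w | ∃ a d, w = ι a * j d} : Set W))
    (hid : ∀ w t, ∃ t', κ t * w = κ t') (hst : Nonempty (A ≃⋆ₐ[ℂ] T))
    {G : Type} [Group G] [Countable G] (hG : Vale.Agent.P184.IsAmenable G)
    (α : G →* (A ≃⋆ₐ[ℂ] A)) (β : G →* (W ≃⋆ₐ[ℂ] W)) (h1 : ∀ g a, β g (ι a) = ι (α g a))
    (h2 : ∀ g d, β g (j d) = j d) (γ : G →* Aut (Unitization ℂ A))
    (hγ : ∀ g (a : A), γ g a = (α g a : A)) {b c : A} (hb : IsSelfAdjoint b) (hc' : IsSelfAdjoint c)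
    (hbc : b * c = b)
    (hI : PropSIN ω (Set.range (Unitization.inr : A → Unitization ℂ A)) γ (b : Unitization ℂ A) c) :
    ∃ (Φ : A ≃⋆ₐ[ℂ] T) (u : G → W), (∀ g, u g ∈ unitary W) ∧ (∀ g h, u (g * h) = u g * β g (u h)) ∧
      ∀ g a, κ (Φ (α g a)) = u g * β g (κ (Φ a)) * star (u g) := by
  obtain ⟨φ⟩ := hst
  have : SeparableSpace (Unitization ℂ A) :=
    (Unitization.uniformEquivProd (𝕜 := ℂ) (A := A)).symm.surjective.denseRange.separableSpace
      (Unitization.uniformEquivProd (𝕜 := ℂ) (A := A)).symm.continuous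
  obtain ⟨E, _, _, q, hq⟩ := exists_ult (A := Unitization ℂ A) ω
  obtain ⟨Q, _, π, hπ⟩ := exists_pres (Cen q (id : Unitization ℂ A → Unitization ℂ A))
    (fun a : A => q (cst _ (a : Unitization ℂ A))) fun x hx a => mem_cen.1 hx _
  have hπ' : Pres _ (fun a : Set.range (Unitization.inr : A → Unitization ℂ A) => q (cst _ a)) π :=
    ⟨hπ.surj, fun x => (hπ.ker x).trans ⟨fun h => by rintro ⟨_, a, rfl⟩; exact h a,
      fun h a => h ⟨_, a, rfl⟩⟩, hπ.nrm⟩
  obtain ⟨σ, hσ⟩ := actQ hq γ (by rintro g _ ⟨a, rfl⟩; exact ⟨_, (hγ g a).symm⟩) hπ'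
  obtain ⟨c1, c2⟩ := cpg_of_one (σ := σ) fun D _ _ β i hi S hS => oneQ hω hq γ hπ hσ hi S hS
  have le : P095.Fix q (id : Unitization ℂ A → Unitization ℂ A) (fun k : Empty => k.elim) ≤
      Cen q (id : Unitization ℂ A → Unitization ℂ A) := fun x hx => (mem_fix.1 hx).1
  have c3 : IsEmpty (Q →⋆ₐ[ℂ] ℂ) := cen_nocharN hω hq hs hn ι j κ hκ hc hT hid φ
    (π0 := π.comp (StarSubalgebra.inclusion le)) ⟨fun z => by
      obtain ⟨x, rfl⟩ := hπ.surj z
      exact ⟨⟨x.1, mem_fix.2 ⟨x.2, fun k => k.elim⟩⟩, rfl⟩, fun x => hπ.ker _, fun x δ hδ => by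
      obtain ⟨m, m1, m2⟩ := hπ.nrm (StarSubalgebra.inclusion le x) δ hδ
      exact ⟨⟨m.1, mem_fix.2 ⟨m.2, fun k => k.elim⟩⟩, m1, m2⟩⟩
  have hM : McD σ := boost c1 (P095M.relM c1 (P095A.gam_all hG c1 c2 c3) c2 c3 hG)
  have hB := P095S.mcB hω hG α γ hγ hq hπ hσ hM hb hc' hbc
  obtain ⟨Φ, hΦ⟩ := exists_ind hq fun g : G => Unitization.starMap (α g : A →⋆ₙₐ[ℂ] A)
  have e : (fun g : G => Unitization.starMap (α g : A →⋆ₙₐ[ℂ] A)) =
      fun g => (γ (id g) : Unitization ℂ A →⋆ₐ[ℂ] Unitization ℂ A) := funext fun g =>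
    StarAlgHom.ext fun x => by
      induction x using Unitization.ind with
      | inl_add_inr r a =>
        rw [map_add, map_add, Unitization.starMap_inr]
        exact congrArg₂ (· + ·) ((AlgHomClass.commutes _ r).trans
          (AlgHomClass.commutes (γ g : Unitization ℂ A →⋆ₐ[ℂ] Unitization ℂ A) r).symm)
          (hγ g a).symm
  obtain ⟨Q', _, π', hp⟩ := exists_pres (P095.Fix q (id : Unitization ℂ A → Unitization ℂ A) Φ)
    (fun a : A => q (cst _ (a : Unitization ℂ A))) fun x hx a => mem_cen.1 (mem_fix.1 hx).1 _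
  have no := P095S.nocharN hω hq γ (Unitization.inr : A → Unitization ℂ A) id (e ▸ hΦ) hp
    (eqSIN_of hI) hB
  exact charN hω hZ hf ι j κ hι hκ hc hT hid α β h1 h2 hq hΦ fun χ hχ =>
    (lift4 π' hp.surj χ fun x hx => hχ x ((hp.ker x).1 hx)).elim no.false

end Vale.Agent.P095S
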