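import Vale.Agent.P095S.PartUNIT
import Vale.Agent.P101.PartS2
import Vale.Agent.P101.PartU2
import Vale.Agent.P101.PartZ2

/-! Part LIFT: almost invariant lifts. -/

namespace Vale.Agent.P095S

open Filter Topology Finset Vale.Agent.P101 Vale.Agent.P095 Vale.Agent.P095G Vale.Agent.P095H
  TopologicalSpace

variable {B E Q : Type} [CStarAlgebra B] [CStarAlgebra E] [CStarAlgebra Q]
  {A : Type} [NonUnitalCStarAlgebra A] {G : Type} [Group G] {ω : Ultrafilter ℕ}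

namespace LIFT

lemma con (φ : B →⋆ₐ[ℂ] E) (hs : Function.Surjective φ) {v : E} (hv : ‖v‖ ≤ 1) :
    ∃ x, φ x = v ∧ ‖x‖ ≤ 1 := by
  obtain ⟨x, rfl⟩ := hs v
  have m0 : ∀ t : ℝ, 0 < max 1 t := fun t => lt_max_of_lt_left one_pos
  have hf : Continuous fun t : ℝ => (√(max 1 t))⁻¹ :=
    Continuous.inv₀ (by fun_prop) fun t => (Real.sqrt_pos.2 (m0 t)).ne'
  have sa := IsSelfAdjoint.star_mul_self x
  refine ⟨x * cfc (fun t : ℝ => (√(max 1 t))⁻¹) (star x * x), ?_, ?_⟩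
  · have e : cfc (fun t : ℝ => (√(max 1 t))⁻¹) (φ (star x * x)) = 1 := by
      nontriviality E
      rw [← cfc_const_one ℝ (φ (star x * x)) (sa.map φ)]
      refine cfc_congr fun t ht => ?_
      have h1 := (le_abs_self t).trans (spectrum.norm_le_norm_of_mem ht)
      rw [map_mul, map_star, CStarRing.norm_star_mul_self] at h1
      have h2 : t ≤ 1 := h1.trans (mul_le_one₀ hv (norm_nonneg _) hv)
      simp [max_eq_left h2]
    rw [map_mul, S2.map_cfc φ hf sa, e, mul_one]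
  · have s2 : IsSelfAdjoint (cfc (fun t : ℝ => (√(max 1 t))⁻¹) (star x * x)) := cfc_predicate _ _
    have e : star (x * cfc (fun t : ℝ => (√(max 1 t))⁻¹) (star x * x)) *
        (x * cfc (fun t : ℝ => (√(max 1 t))⁻¹) (star x * x)) =
        cfc (fun t : ℝ => (√(max 1 t))⁻¹ * t * (√(max 1 t))⁻¹) (star x * x) := by
      have hf2 : Continuous fun t : ℝ => (√(max 1 t))⁻¹ * t := hf.mul continuous_id
      rw [cfc_mul _ _ _ hf2.continuousOn hf.continuousOn,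
        cfc_mul _ (fun t : ℝ => t) _ hf.continuousOn continuousOn_id, cfc_id' ℝ _ sa, star_mul,
        s2.star_eq]
      simp only [mul_assoc]
    have h1 : ‖cfc (fun t : ℝ => (√(max 1 t))⁻¹ * t * (√(max 1 t))⁻¹) (star x * x)‖ ≤ 1 :=
      norm_cfc_le zero_le_one fun t ht => by
        have t0 := spectrum_star_mul_self_nonneg t ht
        have e2 : (√(max 1 t))⁻¹ * t * (√(max 1 t))⁻¹ = t / max 1 t := by
          rw [mul_right_comm, ← mul_inv, Real.mul_self_sqrt (m0 t).le, inv_mul_eq_div]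
        rw [e2, Real.norm_of_nonneg (div_nonneg t0 (m0 t).le), div_le_one (m0 t)]
        exact le_max_right _ _
    rw [← e, CStarRing.norm_star_mul_self] at h1
    exact abs_le_one_iff_mul_self_le_one.2 h1 |>.trans' (le_abs_self _)

lemma slow (hω : (ω : Filter ℕ) ≤ cofinite) (P : ℕ → ℕ → Prop)
    (h : ∀ k, ∀ᶠ n in (ω : Filter ℕ), P k n) :
    ∃ m : ℕ → ℕ, Tendsto m ω atTop ∧ ∀ᶠ n in (ω : Filter ℕ), P (m n) n := by
  classical
  have h1 : ∀ k, ∀ᶠ n in (ω : Filter ℕ), k ≤ n := fun k =>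
    hω (Nat.cofinite_eq_atTop ▸ eventually_ge_atTop k)
  exact ⟨fun n => Nat.findGreatest (P · n) n, tendsto_atTop.2 fun k => ((h k).and (h1 k)).mono
    fun n hn => Nat.le_findGreatest hn.2 hn.1, (h 0).mono fun n hn =>
      Nat.findGreatest_spec (P := (P · n)) n.zero_le hn⟩

lemma unit {d h : ℕ → A} (hd : DenseRange d) (h1 : ∀ k, ‖h k‖ ≤ 1)
    (h2 : ∀ k i : ℕ, i ≤ k → ‖h k * d i - d i‖ < 1 / ((k : ℝ) + 1) ∧
      ‖d i * h k - d i‖ < 1 / ((k : ℝ) + 1)) {m : ℕ → ℕ} (mt : Tendsto m ω atTop) (a : A) (δ : ℝ)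
    (hδ : 0 < δ) : ∀ᶠ n in (ω : Filter ℕ), ‖h (m n) * a - a‖ < δ ∧ ‖a * h (m n) - a‖ < δ := by
  have t0 : ∀ δ : ℝ, 0 < δ → ∀ᶠ n in (ω : Filter ℕ), 1 / ((m n : ℝ) + 1) < δ := fun δ hδ =>
    mt.eventually (tendsto_one_div_add_atTop_nhds_zero_nat.eventually_lt_const hδ)
  obtain ⟨i, hi⟩ := hd.exists_dist_lt a (by positivity : 0 < δ / 3)
  rw [dist_eq_norm] at hi
  filter_upwards [t0 _ (by positivity : 0 < δ / 3), mt.eventually_ge_atTop i] with n a1 a2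
  obtain ⟨a3, a4⟩ := h2 (m n) i a2
  have a5 := (norm_mul_le _ _).trans (mul_le_of_le_one_left (norm_nonneg (a - d i)) (h1 (m n)))
  have a6 := (norm_mul_le _ _).trans (mul_le_of_le_one_right (norm_nonneg (a - d i)) (h1 (m n)))
  have e1 : h (m n) * a - a = h (m n) * (a - d i) + (h (m n) * d i - d i) - (a - d i) := by
    rw [mul_sub]; abel
  have e2 : a * h (m n) - a = (a - d i) * h (m n) + (d i * h (m n) - d i) - (a - d i) := by
    rw [sub_mul]; abel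
  rw [e1, e2]
  constructor
  · refine ((norm_sub_le _ _).trans (add_le_add (norm_add_le _ _) le_rfl)).trans_lt ?_
    linarith
  · refine ((norm_sub_le _ _).trans (add_le_add (norm_add_le _ _) le_rfl)).trans_lt ?_
    linarith

lemma one {q : Linf (Unitization ℂ A) →⋆ₐ[ℂ] E} (hq : IsUlt ω q)
    {π : Cen q (id : Unitization ℂ A → Unitization ℂ A) →⋆ₐ[ℂ] Q}
    (hπ : Pres _ (fun a : A => q (cst _ (a : Unitization ℂ A))) π) {k : ℕ → A}
    {H : Linf (Unitization ℂ A)} (hk : ∀ n, H n = (k n : A))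
    (t1 : ∀ (a : A) (δ : ℝ), 0 < δ → ∀ᶠ n in (ω : Filter ℕ), ‖k n * a - a‖ < δ ∧ ‖a * k n - a‖ < δ) :
    ∃ m4 : q H ∈ Cen q (id : Unitization ℂ A → Unitization ℂ A), π ⟨_, m4⟩ = 1 := by
  have u1 : ∀ a : A, q H * q (cst _ (a : Unitization ℂ A)) = q (cst _ (a : Unitization ℂ A)) :=
    fun a => by
      rw [← map_mul]
      refine (U1.eq_iff hq _ _).2 (Metric.tendsto_nhds.2 fun δ hδ => (t1 a δ hδ).mono fun n hn => ?_)
      rw [dist_zero_right, norm_norm]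
      have := hn.1
      rwa [← Unitization.norm_inr (𝕜 := ℂ), Unitization.inr_sub, Unitization.inr_mul, ← hk] at this
  have u2 : ∀ a : A, q (cst _ (a : Unitization ℂ A)) * q H = q (cst _ (a : Unitization ℂ A)) :=
    fun a => by
      rw [← map_mul]
      refine (U1.eq_iff hq _ _).2 (Metric.tendsto_nhds.2 fun δ hδ => (t1 a δ hδ).mono fun n hn => ?_)
      rw [dist_zero_right, norm_norm]
      have := hn.2
      rwa [← Unitization.norm_inr (𝕜 := ℂ), Unitization.inr_sub, Unitization.inr_mul, ← hk] at this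
  have m4 : q H ∈ Cen q (id : Unitization ℂ A → Unitization ℂ A) := U2.mem_cen.2 fun b => by
    induction b using Unitization.ind with
    | inl_add_inr r a =>
      have e : q (cst _ (Unitization.inl r + (a : Unitization ℂ A))) =
          algebraMap ℂ E r + q (cst _ (a : Unitization ℂ A)) :=
        (map_add (q.comp (Z2.cstH _)) _ _).trans
          (congrArg (· + _) (AlgHomClass.commutes (q.comp (Z2.cstH _)) r))
      rw [e]
      exact (Algebra.commute_algebraMap_right r _).add_right ((u1 a).trans (u2 a).symm)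
  refine ⟨m4, ?_⟩
  rw [← sub_eq_zero, ← map_one π, ← map_sub]
  refine (hπ.ker _).2 fun a => ?_
  change (q H - 1) * _ = 0
  rw [sub_mul, u1, one_mul, sub_self]

lemma est (γ : Aut (Unitization ℂ A)) (α : A ≃⋆ₐ[ℂ] A) (hγ : ∀ a : A, γ a = (α a : A))
    {x : Unitization ℂ A} (hx : ‖x‖ ≤ 1) {h : A} {ε : ℝ} (h1 : ‖(γ x - x) * (α h : A)‖ < 3 / 2 * ε)
    (h2 : ‖α h - h‖ < ε / 2) : ‖γ (x * (h : A)) - x * (h : A)‖ < 2 * ε := by
  have e : γ (x * (h : A)) - x * (h : A) =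
      (γ x - x) * (α h : A) + x * ((α h - h : A) : Unitization ℂ A) := by
    rw [map_mul, hγ, Unitization.inr_sub, sub_mul, mul_sub]
    abel
  have a3 := (norm_mul_le x ((α h - h : A) : Unitization ℂ A)).trans
    (mul_le_of_le_one_left (norm_nonneg _) hx)
  rw [Unitization.norm_inr] at a3
  rw [e]
  refine (norm_add_le _ _).trans_lt ?_
  linarith

lemma ev [Nontrivial B] {q : Linf B →⋆ₐ[ℂ] E} (hq : IsUlt ω q) {I : Type} {c : I → B}
    {π : Cen q (id : B → B) →⋆ₐ[ℂ] Q} (hπ : Pres _ (fun a => q (cst B (c a))) π) {x y : Linf B}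
    (hy : q y ∈ Cen q (id : B → B)) (hx : q x ∈ Cen q (id : B → B)) {ε : ℝ} (hε : 0 < ε)
    (h : ‖π ⟨_, hy⟩ - π ⟨_, hx⟩‖ ≤ ε) {a : I} (ha : ‖c a‖ ≤ 1) :
    ∀ᶠ n in (ω : Filter ℕ), ‖(y n - x n) * c a‖ < 3 / 2 * ε := by
  have b1 : ‖(q y - q x) * q (cst B (c a))‖ ≤ ‖π (⟨_, hy⟩ - ⟨_, hx⟩)‖ * ‖q (cst B (c a))‖ :=
    hπ.norm_mul (⟨_, hy⟩ - ⟨_, hx⟩) a
  rw [map_sub π] at b1
  have b3 : ‖q (cst B (c a))‖ ≤ 1 :=
    (NonUnitalStarAlgHom.norm_apply_le (q.comp (Z2.cstH B)) (c a)).trans ha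
  have b4 : ‖q ((y - x) * cst B (c a))‖ < 3 / 2 * ε := by
    rw [map_mul, map_sub]
    refine b1.trans_lt ((mul_le_mul h b3 (norm_nonneg _) hε.le).trans_lt ?_)
    linarith
  exact hq.ev2 b4

lemma lf {q : Linf (Unitization ℂ A) →⋆ₐ[ℂ] E} (hq : IsUlt ω q)
    {π : Cen q (id : Unitization ℂ A → Unitization ℂ A) →⋆ₐ[ℂ] Q} (hπ : Function.Surjective π)
    {v : Q} (hv : ‖v‖ ≤ 1) : ∃ (x : Linf (Unitization ℂ A))
      (hx : q x ∈ Cen q (id : Unitization ℂ A → Unitization ℂ A)), π ⟨_, hx⟩ = v ∧ ∀ n, ‖x n‖ ≤ 1 := by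
  obtain ⟨z, hz, z1⟩ := con π hπ hv
  obtain ⟨x, hx, x1⟩ := con q hq.surj (v := z.1) z1
  exact ⟨x, hx ▸ z.2, (congrArg π (Subtype.ext hx)).trans hz, fun n => (U1.le x n).trans x1⟩

lemma mul {q : Linf (Unitization ℂ A) →⋆ₐ[ℂ] E}
    {π : Cen q (id : Unitization ℂ A → Unitization ℂ A) →⋆ₐ[ℂ] Q} {x y : Linf (Unitization ℂ A)}
    (hx : q x ∈ Cen q (id : Unitization ℂ A → Unitization ℂ A))
    (hy : q y ∈ Cen q (id : Unitization ℂ A → Unitization ℂ A)) :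
    ∃ h : q (x * y) ∈ Cen q (id : Unitization ℂ A → Unitization ℂ A),
      π ⟨_, h⟩ = π ⟨_, hx⟩ * π ⟨_, hy⟩ :=
  ⟨by rw [map_mul]; exact mul_mem hx hy,
    (congrArg π (Subtype.ext (map_mul q x y))).trans (map_mul π ⟨_, hx⟩ ⟨_, hy⟩)⟩

end LIFT

theorem liftN (hω : (ω : Filter ℕ) ≤ cofinite) [SeparableSpace A] (hG : P184.IsAmenable G)
    (α : G →* (A ≃⋆ₐ[ℂ] A)) (γ : G →* Aut (Unitization ℂ A)) (hγ : ∀ g (a : A), γ g a = (α g a : A))
    {q : Linf (Unitization ℂ A) →⋆ₐ[ℂ] E} (hq : IsUlt ω q)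
    {π : Cen q (id : Unitization ℂ A → Unitization ℂ A) →⋆ₐ[ℂ] Q}
    (hπ : Pres _ (fun a : A => q (cst _ (a : Unitization ℂ A))) π) {σ : G →* (Q ≃⋆ₐ[ℂ] Q)}
    (hσ : ∀ g x (hx : q x ∈ Cen q (id : Unitization ℂ A → Unitization ℂ A)),
      ∃ hx' : q (Z2.mapL (γ g : Unitization ℂ A →⋆ₐ[ℂ] Unitization ℂ A) x) ∈
        Cen q (id : Unitization ℂ A → Unitization ℂ A), σ g (π ⟨q x, hx⟩) = π ⟨_, hx'⟩)
    (v : Q) (hv : ‖v‖ ≤ 1) (K : Finset G) {ε : ℝ} (hε : 0 < ε) (hK : ∀ g ∈ K, ‖σ g v - v‖ ≤ ε) :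
    ∃ (y : Linf (Unitization ℂ A)) (hy : q y ∈ Cen q (id : Unitization ℂ A → Unitization ℂ A)),
      π ⟨q y, hy⟩ = v ∧ (∀ n, ‖y n‖ ≤ 1) ∧
        ∀ g ∈ K, ∀ᶠ n in (ω : Filter ℕ), ‖γ g (y n) - y n‖ < 2 * ε := by
  classical
  obtain ⟨x, m1, e0, x2⟩ := LIFT.lf hq hπ.surj hv
  obtain ⟨d, hd⟩ := exists_dense_seq A
  choose h h1 h2 h3 using fun k : ℕ => unitN hG α ((range (k + 1)).image d) K (1 / ((k : ℝ) + 1))
    (by positivity)
  obtain ⟨m, mt, hm⟩ := LIFT.slow hω (fun k n => ∀ g ∈ K,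
    ‖(γ g (x n) - x n) * (α g (h k) : A)‖ < 3 / 2 * ε) fun k => (eventually_all_finset K).2
    fun g hg => by
      obtain ⟨m2, m3⟩ := hσ g _ m1
      exact LIFT.ev hq hπ m2 m1 hε (by rw [← m3, e0]; exact hK g hg)
        (a := α g (h k)) (by rw [Unitization.norm_inr, StarAlgEquiv.norm_map]; exact h1 k)
  have t0 : ∀ δ : ℝ, 0 < δ → ∀ᶠ n in (ω : Filter ℕ), 1 / ((m n : ℝ) + 1) < δ := fun δ hδ =>
    mt.eventually (tendsto_one_div_add_atTop_nhds_zero_nat.eventually_lt_const hδ)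
  have t1 := LIFT.unit hd h1 (fun k i hi => h2 k (d i)
    (mem_image_of_mem d (mem_range.2 (Nat.lt_succ_of_le hi)))) mt
  have hH : ∀ n, ‖((h (m n) : A) : Unitization ℂ A)‖ ≤ 1 := fun n => by
    rw [Unitization.norm_inr]; exact h1 _
  let H : Linf (Unitization ℂ A) := U1.bd (fun n => ((h (m n) : A) : Unitization ℂ A)) 1 hH
  obtain ⟨m4, m5⟩ := LIFT.one hq hπ (H := H) (fun _ => rfl) t1
  obtain ⟨m6, m7⟩ := LIFT.mul (π := π) m1 m4
  refine ⟨x * H, m6, by rw [m7, e0, m5, mul_one], fun n => ?_, fun g hg => ?_⟩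
  · exact (norm_mul_le _ _).trans (mul_le_one₀ (x2 n) (norm_nonneg _) (hH n))
  · filter_upwards [hm, t0 _ (half_pos hε)] with n a1 a2
    exact LIFT.est (γ g) (α g) (hγ g) (x2 n) (a1 g hg) ((h3 (m n) g hg).trans a2)

end Vale.Agent.P095S
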