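import Vale.Agent.P095S.Work
import Vale.Agent.P095G.PartFIN

/-! Part TRANS. -/

namespace Vale.Agent.P095S

open Filter Topology Finset Vale.Agent.P101 Vale.Agent.P095 Vale.Agent.P095G Vale.Agent.P095H
  TopologicalSpace

variable {B E Q : Type} [CStarAlgebra B] [CStarAlgebra E] [CStarAlgebra Q] {ω : Ultrafilter ℕ}

namespace TRA

variable {ρ : B →ₗ[ℂ] ℂ}

lemma st (h : ∀ x, 0 ≤ (ρ (star x * x)).re ∧ (ρ (star x * x)).im = 0) (x : B) :
    ρ (star x) = star (ρ x) := by
  have h0 := (h x).2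
  have h1 := (h (1 + x)).2
  have h2 := (h (Complex.I • 1 + x)).2
  have h3 := (h 1).2
  rw [star_one, one_mul] at h3
  simp only [star_add, star_one, add_mul, mul_add, one_mul, mul_one, map_add, star_smul,
    smul_mul_assoc, mul_smul_comm, map_smul, smul_eq_mul, Complex.add_im, Complex.mul_im,
    h0, h3, RCLike.star_def, Complex.conj_I, Complex.neg_re,
    Complex.neg_im, Complex.I_re, Complex.I_im, Complex.mul_re] at h1 h2
  refine Complex.ext ?_ ?_
  · rw [RCLike.star_def, Complex.conj_re]; linarith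
  · rw [RCLike.star_def, Complex.conj_im]; linarith

lemma cs (h : ∀ x, 0 ≤ (ρ (star x * x)).re ∧ (ρ (star x * x)).im = 0) (x y : B) :
    ‖ρ (star x * y)‖ ^ 2 ≤ (ρ (star x * x)).re * (ρ (star y * y)).re := by
  obtain ⟨c, hc⟩ : ∃ c, c = ρ (star x * y) := ⟨_, rfl⟩
  have e : ρ (star y * x) = star c := by rw [hc, ← st h, star_mul, star_star]
  have key : ∀ t : ℝ, 0 ≤ (ρ (star x * x)).re * ‖c‖ ^ 2 * (t * t) + (2 * ‖c‖ ^ 2) * t +
      (ρ (star y * y)).re := fun t => by
    have h1 := (h (((t : ℂ) * c) • x + y)).1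
    simp only [star_add, star_smul, add_mul, mul_add, smul_mul_assoc, mul_smul_comm, map_add,
      map_smul, smul_eq_mul, e, ← hc, Complex.add_re, Complex.mul_re, Complex.mul_im,
      RCLike.star_def, map_mul, Complex.conj_ofReal, Complex.conj_re, Complex.conj_im,
      Complex.ofReal_re, Complex.ofReal_im, (h x).2] at h1
    rw [Complex.sq_norm, Complex.normSq_apply]
    nlinarith
  have h2 := discrim_le_zero key
  rw [discrim] at h2
  rw [← hc]
  rcases (sq_nonneg ‖c‖).eq_or_lt with h3 | h3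
  · rw [← h3]
    exact mul_nonneg (h x).1 (h y).1
  · nlinarith

lemma low (h : ∀ x, 0 ≤ (ρ (star x * x)).re ∧ (ρ (star x * x)).im = 0)
    (c2 : ∀ x y, ρ (x * y) = ρ (y * x)) {e : B} {r : ℝ}
    (he : ∀ σ : B →ₗ[ℂ] ℂ, Tr σ → r ≤ (σ e).re) : r * (ρ 1).re ≤ (ρ e).re := by
  have a1 := h 1
  rw [star_one, mul_one] at a1
  obtain ⟨t, c4⟩ : ∃ t : ℝ, ρ 1 = t := ⟨(ρ 1).re, Complex.ext rfl (by simpa using a1.2)⟩
  rw [c4, Complex.ofReal_re] at a1 ⊢
  rcases a1.1.eq_or_lt with t0 | t0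
  · have := cs h 1 e
    rw [star_one, one_mul, one_mul, c4, ← t0, Complex.ofReal_re, zero_mul] at this
    rw [← t0, norm_eq_zero.1 (pow_eq_zero_iff two_ne_zero |>.1 (le_antisymm this (sq_nonneg _)))]
    simp
  · have k := he (((t⁻¹ : ℝ) : ℂ) • ρ) ⟨by
      rw [LinearMap.smul_apply, c4, smul_eq_mul, ← Complex.ofReal_mul, inv_mul_cancel₀ t0.ne',
        Complex.ofReal_one], fun x => by
      rw [LinearMap.smul_apply, smul_eq_mul, Complex.re_ofReal_mul, Complex.im_ofReal_mul, (h x).2]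
      exact ⟨mul_nonneg (inv_nonneg.2 t0.le) (h x).1, mul_zero _⟩, fun x y => by
      rw [LinearMap.smul_apply, LinearMap.smul_apply, c2]⟩
    rwa [LinearMap.smul_apply, smul_eq_mul, Complex.re_ofReal_mul, le_inv_mul_iff₀ t0, mul_comm] at k

lemma mem (c x : B) : x * c ∈ TwoSidedIdeal.span {c} :=
  TwoSidedIdeal.mul_mem_left _ _ _ (TwoSidedIdeal.subset_span rfl)

end TRA

theorem ptr_bd {c : B} (hc : IsSelfAdjoint c) {τ : B →ₗ[ℂ] ℂ} (h : PTr c τ) (z : B) :
    ‖τ (c * z * c)‖ ≤ ‖z‖ := by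
  let _ := CStarAlgebra.spectralOrder B
  have _ := CStarAlgebra.spectralOrderedRing B
  let φ : B →ₗ[ℂ] ℂ := τ ∘ₗ LinearMap.mulRight ℂ c ∘ₗ LinearMap.mulLeft ℂ c
  have hφ : ∀ x, φ x = τ (c * x * c) := fun x => rfl
  have p : ∀ x, 0 ≤ (φ (star x * x)).re ∧ (φ (star x * x)).im = 0 := fun x => by
    have := h.pos _ (TRA.mem c x)
    rwa [star_mul, hc.star_eq, mul_assoc, ← mul_assoc (star x), ← mul_assoc, ← hφ] at this
  have h1 := TRA.cs p 1 z
  have h0 := (p 1).1
  have hl : (φ 1).re ≤ 1 := by rw [hφ, mul_one]; exact h.le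
  rw [star_one, one_mul] at h0
  rw [star_one, one_mul, one_mul] at h1
  obtain ⟨w, hw⟩ := CStarAlgebra.nonneg_iff_eq_star_mul_self.1
    (sub_nonneg.2 (IsSelfAdjoint.star_mul_self z).le_algebraMap_norm_self)
  have h2 := (p w).1
  rw [← hw, map_sub, Algebra.algebraMap_eq_smul_one, ← Complex.coe_smul, map_smul, smul_eq_mul,
    Complex.sub_re, Complex.re_ofReal_mul, CStarRing.norm_star_mul_self, ← sq] at h2
  refine (pow_le_pow_iff_left₀ (norm_nonneg _) (norm_nonneg _) two_ne_zero).1 (h1.trans ?_)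
  nlinarith [(p z).1, mul_le_mul_of_nonneg_left hl (sq_nonneg ‖z‖),
    mul_le_mul_of_nonneg_right hl (p z).1]

theorem trans (_hω : (ω : Filter ℕ) ≤ cofinite) [Nontrivial B] {q : Linf B →⋆ₐ[ℂ] E} (hq : IsUlt ω q)
    {I : Type} {a : I → B} {π : Cen q (id : B → B) →⋆ₐ[ℂ] Q}
    (hπ : Pres _ (fun i => q (cst B (a i))) π) (i : I) {c : B} (hb : IsSelfAdjoint (a i))
    (hc : IsSelfAdjoint c) (hbc : a i * c = a i) (y : Linf B) (hy : q y ∈ Cen q (id : B → B)) {r : ℝ}
    (hr : ∀ ρ : Q →ₗ[ℂ] ℂ, Tr ρ → r ≤ (ρ (π ⟨q y, hy⟩)).re) {δ : ℝ} (hδ : 0 < δ) :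
    ∀ᶠ n in (ω : Filter ℕ), ∀ τ : B →ₗ[ℂ] ℂ, PTr c τ →
      r * (τ (a i * a i)).re - δ ≤ (τ (a i * y n * a i)).re := by
  have hk := fun x => (hπ.ker x).1
  by_contra hn
  rw [← Ultrafilter.eventually_not] at hn
  have ch : ∀ n, ∃ τ : B →ₗ[ℂ] ℂ, PTr c τ ∧ ((¬ ∀ τ : B →ₗ[ℂ] ℂ, PTr c τ →
      r * (τ (a i * a i)).re - δ ≤ (τ (a i * y n * a i)).re) →
      ¬ r * (τ (a i * a i)).re - δ ≤ (τ (a i * y n * a i)).re) := fun n => by
    by_cases hm : ∀ τ : B →ₗ[ℂ] ℂ, PTr c τ → r * (τ (a i * a i)).re - δ ≤ (τ (a i * y n * a i)).re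
    · exact ⟨0, ⟨by simp, by simp, by simp⟩, fun h => absurd hm h⟩
    · obtain ⟨τ, hτ⟩ := not_forall.1 hm
      exact ⟨τ, (Classical.not_imp.1 hτ).1, fun _ => (Classical.not_imp.1 hτ).2⟩
  choose τ hτ hτ' using ch
  replace hk := fun x h => hk x h i
  generalize a i = b at hb hbc hn hτ' hk
  have mb : ∀ x, x * b ∈ TwoSidedIdeal.span {c} := fun x => by
    rw [← hbc, ← mul_assoc]; exact TRA.mem c _
  have bd : ∀ n (u : B), ‖τ n (u * b)‖ ≤ ‖u * b‖ := fun n u => by
    have := ptr_bd hc (hτ n) (u * b)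
    rwa [mul_assoc c, mul_assoc u, hbc, ← (hτ n).comm _ (mb u), mul_assoc, hbc] at this
  have h1 : ∀ x : Linf B, ∃ l, Tendsto (fun m => τ m (b * x m * b)) ω (𝓝 l) := fun x => by
    obtain ⟨l, -, hl⟩ := (isCompact_closedBall (0 : ℂ) (‖b‖ * ‖x‖ * ‖b‖)).ultrafilter_le_nhds
      (ω.map fun m => τ m (b * x m * b))
      (le_principal_iff.2 (mem_map.2 (Eventually.of_forall fun m =>
        mem_closedBall_zero_iff.2 ((bd m _).trans (norm_mul_le_of_le
          (norm_mul_le_of_le le_rfl (U1.le x m)) le_rfl)))))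
    exact ⟨l, hl⟩
  choose L hL using h1
  have h2 : ∀ (x x' : Linf B) hx hx', π ⟨q x, hx⟩ = π ⟨q x', hx'⟩ → L x = L x' :=
    fun x x' hx hx' h => by
    have k := hk (⟨q x, hx⟩ - ⟨q x', hx'⟩) (by rw [map_sub, h, sub_self])
    have k' : q ((x - x') * cst B b) = 0 := by rw [map_mul, map_sub]; exact k
    have k2 := ((U1.zero_iff hq _).1 k').const_mul ‖b‖
    rw [mul_zero] at k2
    have t : Tendsto (fun m => τ m (b * x m * b) - τ m (b * x' m * b)) ω (𝓝 0) :=
      squeeze_zero_norm (fun m => by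
        rw [← map_sub, ← sub_mul, ← mul_sub]
        refine (bd m _).trans ?_
        rw [mul_assoc]
        exact norm_mul_le _ _) k2
    exact sub_eq_zero.1 (tendsto_nhds_unique ((hL x).sub (hL x')) t)
  have sj : ∀ z : Q, ∃ (x : Linf B) (hx : q x ∈ Cen q (id : B → B)), π ⟨q x, hx⟩ = z := fun z => by
    obtain ⟨⟨w, hw⟩, rfl⟩ := hπ.surj z
    obtain ⟨x, rfl⟩ := hq.surj w
    exact ⟨x, hw, rfl⟩
  choose s s1 s2 using sj
  have key : ∀ x hx, L (s (π ⟨q x, hx⟩)) = L x := fun x hx => h2 _ _ _ hx (s2 _)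
  let ψ : Q →ₗ[ℂ] ℂ :=
    { toFun := fun z => L (s z)
      map_add' := fun u v => by
        have hx : q (s u + s v) ∈ Cen q (id : B → B) := by
          rw [map_add]; exact add_mem (s1 u) (s1 v)
        have e : u + v = π ⟨_, hx⟩ := by
          conv_lhs => rw [← s2 u, ← s2 v, ← map_add]
          exact congrArg π (Subtype.ext (map_add q _ _).symm)
        rw [e, key]
        exact tendsto_nhds_unique (hL _) (((hL (s u)).add (hL (s v))).congr fun m => by
          rw [← map_add, ← add_mul, ← mul_add]; rfl)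
      map_smul' := fun t u => by
        have hx : q (t • s u) ∈ Cen q (id : B → B) := by
          rw [map_smul]; exact SMulMemClass.smul_mem t (s1 u)
        have e : t • u = π ⟨_, hx⟩ := by
          conv_lhs => rw [← s2 u, ← map_smul]
          exact congrArg π (Subtype.ext (map_smul q _ _).symm)
        rw [e, key]
        exact tendsto_nhds_unique (hL _) (((hL (s u)).const_smul t).congr fun m => by
          rw [← map_smul, ← smul_mul_assoc, ← mul_smul_comm]; rfl) }
  have hm : ∀ u v, Tendsto (fun m => τ m (b * (s u m * s v m) * b)) ω (𝓝 (ψ (u * v))) :=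
    fun u v => by
    have hx : q (s u * s v) ∈ Cen q (id : B → B) := by
      rw [map_mul]; exact mul_mem (s1 u) (s1 v)
    have e : u * v = π ⟨_, hx⟩ := by
      conv_lhs => rw [← s2 u, ← s2 v, ← map_mul]
      exact congrArg π (Subtype.ext (map_mul q _ _).symm)
    change Tendsto _ _ (𝓝 (L (s (u * v))))
    rw [e, key]
    exact hL (s u * s v)
  have hs : ∀ u, Tendsto (fun m => τ m (star (s u m * b) * (s u m * b))) ω
      (𝓝 (ψ (star u * u))) := fun u => by
    have hx : q (star (s u) * s u) ∈ Cen q (id : B → B) := by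
      rw [map_mul, map_star]; exact mul_mem (star_mem (s1 u)) (s1 u)
    have e : star u * u = π ⟨_, hx⟩ := by
      conv_lhs => rw [← s2 u, ← map_star, ← map_mul]
      exact congrArg π (Subtype.ext ((map_mul q _ _).trans (by rw [map_star]; rfl)).symm)
    change Tendsto _ _ (𝓝 (L (s (star u * u))))
    rw [e, key]
    refine (hL (star (s u) * s u)).congr fun m => ?_
    rw [star_mul, hb.star_eq, show (star (s u) * s u) m = star (s u m) * s u m from rfl]
    simp only [mul_assoc]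
  have cm : ∀ u, Tendsto (fun m => ‖s u m * b - b * s u m‖) ω (𝓝 0) := fun u =>
    (U1.eq_iff hq (s u * cst B b) (cst B b * s u)).1 (by
      rw [map_mul, map_mul]
      exact ((StarSubalgebra.mem_centralizer_iff ℂ).1 (s1 u) _ ⟨b, rfl⟩).1.symm)
  have k := TRA.low (ρ := ψ) (fun u => ⟨ge_of_tendsto' ((Complex.continuous_re.tendsto _).comp
      (hs u)) fun m => ((hτ m).pos _ (mb _)).1,
    tendsto_nhds_unique ((Complex.continuous_im.tendsto _).comp (hs u))
      (tendsto_const_nhds.congr fun m => ((hτ m).pos _ (mb _)).2.symm)⟩) (fun u v => by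
    have t0 := ((cm v).const_mul ‖s u‖).mul_const ‖b‖ |>.add
      (((cm u).const_mul ‖s v‖).mul_const ‖b‖)
    rw [mul_zero, zero_mul, mul_zero, zero_mul, add_zero] at t0
    have t : Tendsto (fun m => τ m (b * (s u m * s v m) * b) - τ m (b * (s v m * s u m) * b)) ω
        (𝓝 0) := squeeze_zero_norm (fun m => by
      have e1 : τ m (b * (s u m * s v m) * b) = τ m (s u m * (s v m * b - b * s v m) * b) +
          τ m (s u m * b * (s v m * b)) := by
        rw [mul_assoc b, ← (hτ m).comm _ (mb _), ← map_add]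
        congr 1
        noncomm_ring
      have e2 : τ m (b * (s v m * s u m) * b) = τ m (s v m * (s u m * b - b * s u m) * b) +
          τ m (s u m * b * (s v m * b)) := by
        rw [mul_assoc b, ← (hτ m).comm _ (mb _), (hτ m).comm _ (mb (s u m)), ← map_add]
        congr 1
        noncomm_ring
      rw [e1, e2, add_sub_add_right_eq_sub]
      exact (norm_sub_le _ _).trans (add_le_add
        ((bd m _).trans (norm_mul_le_of_le (norm_mul_le_of_le (U1.le _ m) le_rfl) le_rfl))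
        ((bd m _).trans (norm_mul_le_of_le (norm_mul_le_of_le (U1.le _ m) le_rfl) le_rfl)))) t0
    exact sub_eq_zero.1 (tendsto_nhds_unique ((hm u v).sub (hm v u)) t)) hr
  have one : q 1 ∈ Cen q (id : B → B) := by rw [map_one]; exact one_mem _
  have e1 : ψ 1 = L 1 := by
    have : (1 : Q) = π ⟨q 1, one⟩ := by
      rw [← map_one π]; exact congrArg π (Subtype.ext (map_one q).symm)
    rw [this]
    exact key _ _
  have e2 : ψ (π ⟨q y, hy⟩) = L y := key _ _
  rw [e1, e2] at k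
  have t1 := (((Complex.continuous_re.tendsto _).comp (hL 1)).const_mul r).sub
    ((Complex.continuous_re.tendsto _).comp (hL y))
  obtain ⟨m, b1, b2⟩ := (hn.and (t1.eventually (gt_mem_nhds (by linarith : _ < δ)))).exists
  refine hτ' m b1 ?_
  have e3 : b * (1 : Linf B) m * b = b * b := by
    rw [show (1 : Linf B) m = 1 from rfl, mul_one]
  simp only [Function.comp_apply, e3] at b2
  linarith

end Vale.Agent.P095S
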