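import Vale.Agent.P095S.PartLIFT
import Vale.Agent.P095S.PartTRANS
import Vale.Agent.P095G.PartSI2

/-! Part MCB: tracial matrix units in the unitization. -/

namespace Vale.Agent.P095S

open Filter Topology Finset Vale.Agent.P101 Vale.Agent.P095 Vale.Agent.P095G Vale.Agent.P095H
  TopologicalSpace

variable {B E Q : Type} [CStarAlgebra B] [CStarAlgebra E] [CStarAlgebra Q]
  {A : Type} [NonUnitalCStarAlgebra A] {G : Type} [Group G] {ω : Ultrafilter ℕ}

theorem mcB (hω : (ω : Filter ℕ) ≤ cofinite) [SeparableSpace A] (hG : P184.IsAmenable G)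
    (α : G →* (A ≃⋆ₐ[ℂ] A)) (γ : G →* Aut (Unitization ℂ A)) (hγ : ∀ g (a : A), γ g a = (α g a : A))
    {q : Linf (Unitization ℂ A) →⋆ₐ[ℂ] E} (hq : IsUlt ω q)
    {π : Cen q (id : Unitization ℂ A → Unitization ℂ A) →⋆ₐ[ℂ] Q}
    (hπ : Pres _ (fun a : A => q (cst _ (a : Unitization ℂ A))) π) {σ : G →* (Q ≃⋆ₐ[ℂ] Q)}
    (hσ : ∀ g x (hx : q x ∈ Cen q (id : Unitization ℂ A → Unitization ℂ A)),
      ∃ hx' : q (Z2.mapL (γ g : Unitization ℂ A →⋆ₐ[ℂ] Unitization ℂ A) x) ∈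
        Cen q (id : Unitization ℂ A → Unitization ℂ A), σ g (π ⟨q x, hx⟩) = π ⟨_, hx'⟩)
    (h : McD σ) {b c : A} (hb : IsSelfAdjoint b) (hc : IsSelfAdjoint c) (hbc : b * c = b) :
    McB γ (b : Unitization ℂ A) c := by
  intro X K M ε hε
  have hb' : IsSelfAdjoint (b : Unitization ℂ A) := hb.inr ℂ
  have hc' : IsSelfAdjoint (c : Unitization ℂ A) := hc.inr ℂ
  have e1 : (b : Unitization ℂ A) * c = b := by rw [← Unitization.inr_mul, hbc]
  have e2 : (c : Unitization ℂ A) * b = b := by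
    have := congrArg star e1
    rwa [star_mul, hb'.star_eq, hc'.star_eq] at this
  obtain ⟨R, R1, hR⟩ : ∃ R : ℝ, 1 ≤ R ∧ ∀ τ : Unitization ℂ A →ₗ[ℂ] ℂ, PTr (c : Unitization ℂ A) τ →
      (τ ((b : Unitization ℂ A) * b)).re ≤ R := by
    refine ⟨‖(b : Unitization ℂ A) * b‖ + 1, le_add_of_nonneg_left (norm_nonneg _), fun τ hτ => ?_⟩
    have := ptr_bd hc' hτ ((b : Unitization ℂ A) * b)
    rw [← mul_assoc, e2, mul_assoc, e1] at this
    exact ((Complex.re_le_norm _).trans this).trans (le_add_of_nonneg_right zero_le_one)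
  obtain ⟨η, η0, η1, η2, η3⟩ : ∃ η : ℝ, 0 < η ∧ η ≤ 1 ∧ η * R ≤ ε / 2 ∧ (2 * M + 1) * η ≤ 1 / 4 := by
    refine ⟨min (min 1 (ε / 2 / R)) (1 / (4 * (2 * M + 1))), by positivity,
      (min_le_left _ _).trans (min_le_left _ _), ?_, ?_⟩
    · rw [← le_div_iff₀ (by positivity)]
      exact (min_le_left _ _).trans (min_le_right _ _)
    · refine (mul_le_mul_of_nonneg_left (min_le_right _ _) (by positivity)).trans_eq ?_
      field_simp
  have η4 : η ^ 2 * R ≤ ε / 2 := by nlinarith [mul_le_mul_of_nonneg_right η1 (mul_pos η0 (one_pos.trans_le R1)).le]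
  have η5 : 2 * η ^ 2 ≤ ε := by nlinarith [mul_le_mul_of_nonneg_left R1 (sq_nonneg η)]
  obtain ⟨D, _, β, ι, v, h1, h2, h3, h4⟩ := SI.mcN hG h K _ (pow_pos η0 2)
  obtain ⟨y, hy, y0, y1, y2⟩ := liftN hω hG α γ hγ hq hπ hσ (ι v)
    ((NonUnitalStarAlgHom.norm_apply_le ι v).trans h2) K (pow_pos η0 2) fun g hg => by
      rw [← h1, ← map_sub]
      exact (NonUnitalStarAlgHom.norm_apply_le ι _).trans (h3 g hg)
  have key : ∀ (z : Linf (Unitization ℂ A)) (w : Cen q (id : Unitization ℂ A → Unitization ℂ A))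
      (d : D) (r : ℝ), q z = w → π w = ι d → (∀ ρ : D →ₗ[ℂ] ℂ, Tr ρ → r ≤ (ρ d).re) →
      ∀ᶠ n in (ω : Filter ℕ), ∀ τ : Unitization ℂ A →ₗ[ℂ] ℂ, PTr (c : Unitization ℂ A) τ →
        r * (τ ((b : Unitization ℂ A) * b)).re - ε / 2 ≤ (τ (b * z n * b)).re :=
    fun z w d r a1 a2 a3 => trans hω hq (a := fun a : A => (a : Unitization ℂ A)) hπ b hb' hc' e1 z
      (a1 ▸ w.2) (fun ρ hρ => by
        have : (⟨q z, a1 ▸ w.2⟩ : Cen q (id : Unitization ℂ A → Unitization ℂ A)) = w :=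
          Subtype.ext a1
        rw [this, a2]
        exact a3 _ (hρ.comp ι)) (half_pos hε)
  let V : Cen q (id : Unitization ℂ A → Unitization ℂ A) := ⟨q y, hy⟩
  have hV : π V = ι v := y0
  have a1 := key (-(star (y * y) * (y * y))) (-(star (V * V) * (V * V))) (-(star (v * v) * (v * v)))
    (-η ^ 2) (by simp only [map_neg, map_mul, map_star]; rfl)
    (by simp only [map_neg, map_mul, map_star, hV]) fun ρ hρ => by
      rw [map_neg, Complex.neg_re, neg_le_neg_iff]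
      exact (h4 ρ hρ).1
  have a2 := key (-(star (1 - star y * y - y * star y) * (1 - star y * y - y * star y)))
    (-(star (1 - star V * V - V * star V) * (1 - star V * V - V * star V)))
    (-(star (1 - star v * v - v * star v) * (1 - star v * v - v * star v)))
    (-η ^ 2) (by simp only [map_neg, map_mul, map_star, map_sub, map_one]; rfl)
    (by simp only [map_neg, map_mul, map_star, map_sub, map_one, hV]) fun ρ hρ => by
      rw [map_neg, Complex.neg_re, neg_le_neg_iff]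
      exact (h4 ρ hρ).2
  have lg : ∀ m ∈ range (M + 1), ∀ ρ : D →ₗ[ℂ] ℂ, Tr ρ → 1 / 4 ≤ (ρ ((star v * v) ^ m)).re ∧
      1 / 4 ≤ (ρ ((1 - star v * v) ^ m)).re := fun m hm ρ hρ => by
    have m1 : (m : ℝ) ≤ M := Nat.cast_le.2 (Nat.lt_succ_iff.1 (mem_range.1 hm))
    exact SI.large hρ h2 m η0.le (le_trans (by nlinarith) η3) (h4 ρ hρ).1 (h4 ρ hρ).2
  have a3 := (eventually_all_finset (range (M + 1))).2 fun m hm =>
    key ((star y * y) ^ m) ((star V * V) ^ m) ((star v * v) ^ m) (1 / 4)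
      (by simp only [map_pow, map_mul, map_star]; rfl)
      (by simp only [map_pow, map_mul, map_star, hV]) fun ρ hρ => (lg m hm ρ hρ).1
  have a4 := (eventually_all_finset (range (M + 1))).2 fun m hm =>
    key ((1 - star y * y) ^ m) ((1 - star V * V) ^ m) ((1 - star v * v) ^ m) (1 / 4)
      (by simp only [map_pow, map_mul, map_star, map_sub, map_one]; rfl)
      (by simp only [map_pow, map_mul, map_star, map_sub, map_one, hV]) fun ρ hρ => (lg m hm ρ hρ).2
  have a5 : ∀ᶠ m in (ω : Filter ℕ), ∀ a ∈ X, ‖y m * a - a * y m‖ < ε :=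
    (eventually_all_finset X).2 fun a _ => by
      have : q (y * cst _ a) = q (cst _ a * y) := by
        rw [map_mul, map_mul]
        exact (U2.mem_cen.1 hy a).eq
      exact ((U1.eq_iff hq _ _).1 this).eventually (gt_mem_nhds hε)
  have a6 := (eventually_all_finset K).2 y2
  obtain ⟨n, b1, b2, b3, b4, b5, b6⟩ := (a1.and (a2.and (a3.and (a4.and (a5.and a6))))).exists
  have up : ∀ (τ : Unitization ℂ A →ₗ[ℂ] ℂ) (x : Unitization ℂ A), PTr (c : Unitization ℂ A) τ →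
      -η ^ 2 * (τ ((b : Unitization ℂ A) * b)).re - ε / 2 ≤ (τ (b * -x * b)).re →
        (τ (b * x * b)).re ≤ ε := fun τ x hτ hx => by
    rw [mul_neg, neg_mul (_ : Unitization ℂ A), map_neg, Complex.neg_re] at hx
    nlinarith [mul_le_mul_of_nonneg_left (hR τ hτ) (sq_nonneg η)]
  have pw : ∀ (z : Linf (Unitization ℂ A)) (m : ℕ), (z ^ m) n = z n ^ m := fun z m =>
    map_pow (FIN.ev n) z m
  refine ⟨y n, y1 n, b5, fun g hg => (b6 g hg).trans_le η5, fun τ hτ =>
    ⟨up τ _ hτ (b1 τ hτ), up τ _ hτ (b2 τ hτ), fun m hm => ⟨?_, ?_⟩⟩⟩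
  · have := b3 m (mem_range.2 (Nat.lt_succ_of_le hm)) τ hτ
    rw [pw] at this
    exact le_trans (by linarith) this
  · have := b4 m (mem_range.2 (Nat.lt_succ_of_le hm)) τ hτ
    rw [pw] at this
    exact le_trans (by linarith) this

end Vale.Agent.P095S
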