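import Vale.Agent.P095S.Work
import Vale.Agent.P095G.PartFOL

/-! Part UNIT: almost invariant approximate units. -/

namespace Vale.Agent.P095S

open Filter Topology Finset Vale.Agent.P095G

variable {A : Type} [NonUnitalCStarAlgebra A] {G : Type} [Group G]

namespace UN

theorem one (Y : Finset A) {ε : ℝ} (hε : 0 < ε) :
    ∃ e : A, ‖e‖ ≤ 1 ∧ ∀ a ∈ Y, ‖e * a - a‖ < ε ∧ ‖a * e - a‖ < ε := by
  let _ := CStarAlgebra.spectralOrder A
  have _ := CStarAlgebra.spectralOrderedRing A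
  have hl := CStarAlgebra.increasingApproximateUnit A
  have := hl.toIsApproximateUnit.neBot
  refine (hl.eventually_norm.and ((eventually_all_finset Y).2 fun a _ => Eventually.and ?_ ?_)).exists
  · have := Metric.tendsto_nhds.1 (hl.toIsApproximateUnit.tendsto_mul_right a) ε hε
    simpa only [dist_eq_norm] using this
  · have := Metric.tendsto_nhds.1 (hl.toIsApproximateUnit.tendsto_mul_left a) ε hε
    simpa only [dist_eq_norm] using this

theorem shift (β : G →* (A ≃⋆ₐ[ℂ] A)) (x : A) {L : ℕ} (h : Fin L → G) (g : G) (J : Finset (Fin L))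
    (φ : Fin L → Fin L) (hφ : Set.InjOn φ J) (h2 : ∀ i ∈ J, (h (φ i))⁻¹ * g * h i = 1) :
    ‖β g (∑ l, β (h l) x) - ∑ l, β (h l) x‖ ≤ 2 * ((L : ℝ) - J.card) * ‖x‖ := by
  classical
  have nm : ∀ k : G, ‖β k x‖ = ‖x‖ := fun k => StarAlgEquiv.norm_map (β k) x
  have e1 : β g (∑ l, β (h l) x) = ∑ l ∈ J.image φ, β (h l) x + ∑ l ∈ Jᶜ, β (g * h l) x := by
    rw [map_sum, ← Finset.sum_add_sum_compl J, Finset.sum_image hφ]
    congr 1
    · refine Finset.sum_congr rfl fun i hi => ?_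
      have : h (φ i) = g * h i := by
        have := h2 i hi
        rw [mul_assoc, inv_mul_eq_one] at this
        exact this
      rw [this, map_mul]
      rfl
    · refine Finset.sum_congr rfl fun i _ => ?_
      rw [map_mul]
      rfl
  rw [e1, ← Finset.sum_add_sum_compl (J.image φ), add_sub_add_left_eq_sub]
  have c1 : ((Jᶜ.card : ℕ) : ℝ) = (L : ℝ) - J.card := by
    rw [Finset.card_compl, Fintype.card_fin, Nat.cast_sub (by simpa using J.card_le_univ)]
  have c2 : (((J.image φ)ᶜ.card : ℕ) : ℝ) = (L : ℝ) - J.card := by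
    rw [Finset.card_compl, Fintype.card_fin, Finset.card_image_of_injOn hφ,
      Nat.cast_sub (by simpa using J.card_le_univ)]
  refine (norm_sub_le _ _).trans ?_
  have a1 := norm_sum_le Jᶜ fun l => β (g * h l) x
  have a2 := norm_sum_le (J.image φ)ᶜ fun l => β (h l) x
  simp only [nm, Finset.sum_const, nsmul_eq_mul, c1, c2] at a1 a2
  linarith

theorem avg {L : ℕ} (hL : 0 < L) (z : Fin L → A) {c : ℝ} (hz : ∀ l, ‖z l‖ ≤ c) :
    ‖(L : ℝ)⁻¹ • ∑ l, z l‖ ≤ c := by
  have hL' : (0 : ℝ) < L := by exact_mod_cast hL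
  rw [norm_smul, Real.norm_eq_abs, abs_of_nonneg (inv_nonneg.2 hL'.le), inv_mul_le_iff₀ hL']
  refine (norm_sum_le _ _).trans ((Finset.sum_le_sum fun l _ => hz l).trans (le_of_eq ?_))
  simp

end UN

open UN in
theorem unitN (hG : P184.IsAmenable G) (α : G →* (A ≃⋆ₐ[ℂ] A)) (X : Finset A) (K : Finset G)
    (ε : ℝ) (hε : 0 < ε) : ∃ h : A, ‖h‖ ≤ 1 ∧ (∀ a ∈ X, ‖h * a - a‖ < ε ∧ ‖a * h - a‖ < ε) ∧
      ∀ g ∈ K, ‖α g h - h‖ < ε := by
  classical
  obtain ⟨L, k, hL, hk⟩ := folner hG K (ε / 4) (by positivity)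
  have hL' : (0 : ℝ) < L := by exact_mod_cast hL
  obtain ⟨e, e1, e2⟩ := one ((univ ×ˢ X).image fun p : Fin L × A => α (k p.1)⁻¹ p.2) (half_pos hε)
  have nm : ∀ (g : G) (x : A), ‖α g x‖ = ‖x‖ := fun g x => StarAlgEquiv.norm_map (α g) x
  have inv : ∀ (g : G) (x : A), α g (α g⁻¹ x) = x := fun g x => by
    have : α g (α g⁻¹ x) = α (g * g⁻¹) x := by
      rw [map_mul]
      rfl
    rw [this, mul_inv_cancel, map_one]
    rfl
  have ea : ∀ a : A, a = (L : ℝ)⁻¹ • ∑ _l : Fin L, a := fun a => by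
    rw [Finset.sum_const, card_univ, Fintype.card_fin, ← Nat.cast_smul_eq_nsmul ℝ, smul_smul,
      inv_mul_cancel₀ hL'.ne', one_smul]
  refine ⟨(L : ℝ)⁻¹ • ∑ l, α (k l) e, avg hL _ fun l => (nm _ _).trans_le e1, fun a ha => ?_,
    fun g hg => ?_⟩
  · have m := fun l : Fin L => e2 (α (k l)⁻¹ a)
      (mem_image.2 ⟨(l, a), mem_product.2 ⟨mem_univ _, ha⟩, rfl⟩)
    constructor
    · have t : ((L : ℝ)⁻¹ • ∑ l, α (k l) e) * a - a = (L : ℝ)⁻¹ • ∑ l, (α (k l) e * a - a) := by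
        rw [Finset.sum_sub_distrib, smul_sub, ← ea, smul_mul_assoc, Finset.sum_mul]
      rw [t]
      refine (avg hL _ fun l => ?_).trans_lt (half_lt_self hε)
      have := (m l).1.le
      rwa [← nm (k l), map_sub, map_mul, inv] at this
    · have t : a * ((L : ℝ)⁻¹ • ∑ l, α (k l) e) - a = (L : ℝ)⁻¹ • ∑ l, (a * α (k l) e - a) := by
        rw [Finset.sum_sub_distrib, smul_sub, ← ea, mul_smul_comm, Finset.mul_sum]
      rw [t]
      refine (avg hL _ fun l => ?_).trans_lt (half_lt_self hε)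
      have := (m l).2.le
      rwa [← nm (k l), map_sub, map_mul, inv] at this
  · obtain ⟨J, φ, a1, a2, a3⟩ := hk g hg
    have b := shift α e k g J φ a1 a2
    have bs : ∀ (r : ℝ) (x : A), α g (r • x) = r • α g x := fun r x => by
      rw [← Complex.coe_smul, map_smul, Complex.coe_smul]
    rw [bs, ← smul_sub, norm_smul, Real.norm_eq_abs, abs_of_nonneg (inv_nonneg.2 hL'.le),
      inv_mul_lt_iff₀ hL']
    have c0 : (0 : ℝ) ≤ (L : ℝ) - J.card := by
      have : J.card ≤ L := by simpa using J.card_le_univ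
      have : (J.card : ℝ) ≤ L := by exact_mod_cast this
      linarith
    have c1 : 2 * ((L : ℝ) - J.card) * ‖e‖ ≤ 2 * ((L : ℝ) - J.card) :=
      mul_le_of_le_one_right (by linarith) e1
    have c2 : 0 < ε * L := by positivity
    nlinarith

end Vale.Agent.P095S
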