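import Vale.Agent.P095S.Defs
import Vale.Agent.P095.NWork
import Vale.Agent.P095G.WorkM
import Vale.Agent.P184.Defs

/-! Working definitions. -/

namespace Vale.Agent.P095S

open Vale.Agent.P095H

variable {G B : Type} [Group G] [CStarAlgebra B]

/-- Almost central, almost invariant tracial matrix units in `B`, tested at `b`. -/
def McB (γ : G →* Aut B) (b c : B) : Prop :=
  ∀ (X : Finset B) (K : Finset G) (M : ℕ) (ε : ℝ), 0 < ε → ∃ v : B, ‖v‖ ≤ 1 ∧
    (∀ a ∈ X, ‖v * a - a * v‖ < ε) ∧ (∀ g ∈ K, ‖γ g v - v‖ < ε) ∧ ∀ τ : B →ₗ[ℂ] ℂ, PTr c τ →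
      (τ (b * (star (v * v) * (v * v)) * b)).re ≤ ε ∧
      (τ (b * (star (1 - star v * v - v * star v) * (1 - star v * v - v * star v)) * b)).re ≤ ε ∧
      ∀ m ≤ M, 1 / 4 * (τ (b * b)).re - ε ≤ (τ (b * (star v * v) ^ m * b)).re ∧
        1 / 4 * (τ (b * b)).re - ε ≤ (τ (b * (1 - star v * v) ^ m * b)).re

end Vale.Agent.P095S
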